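import Vale.Agent.Lib.P331.Events

/-!
P331: the expectation lemma (L2): the mean of the largest non-loop sample `T` is at most
three times the mean of `E0` plus twice the mean of `EA` (two pair swaps).
-/

namespace Vale.Agent.Lib.P331

open Finset

noncomputable section

open Classical

variable {E : Type} [Fintype E] [DecidableEq E]

/-! ### Facts about `topS` -/

theorem helper87_topS_eq (M : Matroid E) (S : E → ℝ) :
    topS M S = (((NL M).sup fun e => (S e).toNNReal : NNReal) : ℝ) := rfl

theorem helper87_topS_nonneg (M : Matroid E) (S : E → ℝ) : 0 ≤ topS M S := by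
  rw [helper87_topS_eq]; exact NNReal.coe_nonneg _

theorem helper87_le_topS (M : Matroid E) (S : E → ℝ) {e : E} (he : e ∈ NL M) :
    S e ≤ topS M S := by
  rw [helper87_topS_eq]
  calc S e ≤ ((S e).toNNReal : ℝ) := Real.le_coe_toNNReal _
    _ ≤ _ := NNReal.coe_le_coe.mpr (Finset.le_sup (f := fun e => (S e).toNNReal) he)

theorem helper87_topS_le (M : Matroid E) (S : E → ℝ) {c : ℝ} (hc : 0 ≤ c)
    (h : ∀ e ∈ NL M, S e ≤ c) : topS M S ≤ c := by
  rw [helper87_topS_eq]
  have h1 : ((NL M).sup fun e => (S e).toNNReal) ≤ c.toNNReal :=
    Finset.sup_le fun e he => Real.toNNReal_le_toNNReal (h e he)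
  calc _ ≤ ((c.toNNReal : NNReal) : ℝ) := NNReal.coe_le_coe.mpr h1
    _ = c := Real.coe_toNNReal c hc

theorem helper87_exists_eq_topS (M : Matroid E) (S : E → ℝ) (hS : ∀ e, 0 ≤ S e)
    (hne : (NL M).Nonempty) : ∃ e ∈ NL M, S e = topS M S := by
  obtain ⟨e, he, h⟩ := Finset.exists_mem_eq_sup (NL M) hne (fun e => (S e).toNNReal)
  refine ⟨e, he, ?_⟩
  rw [helper87_topS_eq, h, Real.coe_toNNReal _ (hS e)]

theorem helper87_topS_eq_zero (M : Matroid E) (S : E → ℝ) (h : NL M = ∅) : topS M S = 0 := by
  rw [helper87_topS_eq, h]; simp

/-! ### The weighted double sum -/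

/-- The weighted double sum of `g` over pairs of atom vectors. -/
def helper87_Ex {Ω : Type} [Fintype Ω] (p : E → Ω → ℝ) (g : (E → Ω) → (E → Ω) → ℝ) : ℝ :=
  ∑ s : E → Ω, ∑ v : E → Ω, wt p s * wt p v * g s v

theorem helper87_wt_nonneg {Ω : Type} (p : E → Ω → ℝ) (hp : ∀ e ω, 0 ≤ p e ω) (s : E → Ω) :
    0 ≤ wt p s :=
  Finset.prod_nonneg fun e _ => hp e (s e)

theorem helper87_Ex_mono {Ω : Type} [Fintype Ω] (p : E → Ω → ℝ) (hp : ∀ e ω, 0 ≤ p e ω)
    {g g' : (E → Ω) → (E → Ω) → ℝ} (h : ∀ s v, g s v ≤ g' s v) :
    helper87_Ex p g ≤ helper87_Ex p g' := by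
  unfold helper87_Ex
  refine Finset.sum_le_sum fun s _ => Finset.sum_le_sum fun v _ => ?_
  exact mul_le_mul_of_nonneg_left (h s v)
    (mul_nonneg (helper87_wt_nonneg p hp s) (helper87_wt_nonneg p hp v))

theorem helper87_Ex_add {Ω : Type} [Fintype Ω] (p : E → Ω → ℝ)
    (g g' : (E → Ω) → (E → Ω) → ℝ) :
    helper87_Ex p (fun s v => g s v + g' s v) = helper87_Ex p g + helper87_Ex p g' := by
  unfold helper87_Ex
  simp only [mul_add, Finset.sum_add_distrib]

theorem helper87_Ex_sum {Ω : Type} [Fintype Ω] {ι : Type} (p : E → Ω → ℝ) (I : Finset ι)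
    (G : ι → (E → Ω) → (E → Ω) → ℝ) :
    helper87_Ex p (fun s v => ∑ i ∈ I, G i s v) = ∑ i ∈ I, helper87_Ex p (G i) := by
  unfold helper87_Ex
  simp only [Finset.mul_sum]
  calc ∑ s : E → Ω, ∑ v : E → Ω, ∑ i ∈ I, wt p s * wt p v * G i s v
      = ∑ s : E → Ω, ∑ i ∈ I, ∑ v : E → Ω, wt p s * wt p v * G i s v :=
        Finset.sum_congr rfl (fun s _ => Finset.sum_comm)
    _ = ∑ i ∈ I, ∑ s : E → Ω, ∑ v : E → Ω, wt p s * wt p v * G i s v := Finset.sum_comm

theorem helper87_wt_update {Ω : Type} (p : E → Ω → ℝ) (s : E → Ω) (e : E) (x : Ω) :
    wt p (Function.update s e x) = p e x * ∏ f ∈ univ \ {e}, p f (s f) := by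
  unfold wt
  have h : (fun f => p f (Function.update s e x f))
      = Function.update (fun k => p k (s k)) e (p e x) := by
    funext f
    exact Function.apply_update (fun k y => p k y) s e x f
  rw [h, Finset.prod_update_of_mem (mem_univ e)]

theorem helper87_wt_eq {Ω : Type} (p : E → Ω → ℝ) (s : E → Ω) (e : E) :
    wt p s = p e (s e) * ∏ f ∈ univ \ {e}, p f (s f) := by
  have h := helper87_wt_update p s e (s e)
  rwa [Function.update_eq_self] at h

/-- Swapping the sample and the value of one element preserves the weighted double sum. -/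
theorem helper87_Ex_swap {Ω : Type} [Fintype Ω] (p : E → Ω → ℝ)
    (g : (E → Ω) → (E → Ω) → ℝ) (e : E) :
    helper87_Ex p g
      = helper87_Ex p (fun s v => g (Function.update s e (v e)) (Function.update v e (s e))) := by
  unfold helper87_Ex
  have h1 := Fintype.sum_prod_type' (fun s v : E → Ω => wt p s * wt p v * g s v)
  have h2 := Fintype.sum_prod_type' (fun s v : E → Ω =>
    wt p s * wt p v * g (Function.update s e (v e)) (Function.update v e (s e)))
  rw [← h1, ← h2]
  let φ : (E → Ω) × (E → Ω) → (E → Ω) × (E → Ω) :=
    fun x => (Function.update x.1 e (x.2 e), Function.update x.2 e (x.1 e))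
  have hφ : Function.Involutive φ := by
    intro x
    simp only [φ, Function.update_self, Function.update_idem, Function.update_eq_self]
  symm
  refine Fintype.sum_equiv hφ.toPerm _ _ (fun x => ?_)
  show wt p x.1 * wt p x.2 * g (Function.update x.1 e (x.2 e)) (Function.update x.2 e (x.1 e))
    = wt p (Function.update x.1 e (x.2 e)) * wt p (Function.update x.2 e (x.1 e))
      * g (Function.update x.1 e (x.2 e)) (Function.update x.2 e (x.1 e))
  rw [helper87_wt_update, helper87_wt_update, helper87_wt_eq p x.1 e, helper87_wt_eq p x.2 e]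
  ring

theorem helper87_vals_update {Ω : Type} (val : E → Ω → ℝ) (s : E → Ω) (e : E) (x : Ω) :
    vals val (Function.update s e x) = Function.update (vals val s) e (val e x) := by
  funext f
  unfold vals
  exact Function.apply_update (fun k y => val k y) s e x f

theorem helper87_sum_ite_le {ι : Type} (I : Finset ι) (P : ι → Prop) (c : ℝ) (hc : 0 ≤ c)
    (huniq : ∀ a ∈ I, ∀ b ∈ I, P a → P b → a = b) :
    ∑ g ∈ I, (if P g then c else 0) ≤ c := by
  by_cases h : ∃ a ∈ I, P a
  · obtain ⟨a, ha, hPa⟩ := h
    have hcong : ∀ g ∈ I, (if P g then c else 0) = if g = a then c else 0 := by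
      intro g hg
      by_cases hga : g = a
      · rw [if_pos hga, if_pos (hga ▸ hPa)]
      · rw [if_neg hga, if_neg (fun hPg => hga (huniq g hg a ha hPg hPa))]
    rw [Finset.sum_congr rfl hcong, Finset.sum_ite_eq' I a (fun _ => c), if_pos ha]
  · have hcong : ∀ g ∈ I, (if P g then c else 0) = 0 := by
      intro g hg
      rw [if_neg (fun hPg => h ⟨g, hg, hPg⟩)]
    rw [Finset.sum_eq_zero hcong]
    exact hc

/-! ### Pointwise definitions -/

/-- `S e` if `e` carries the largest non-loop sample and this sample beats all non-loop
values; zero otherwise. -/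
def helper87_h (M : Matroid E) (e : E) (S V : E → ℝ) : ℝ :=
  if (∀ f ∈ NL M, f ≠ e → S f ≤ S e) ∧ (∀ f ∈ NL M, V f < S e) then S e else 0

/-- The value of `e` beats its own sample and all other non-loop values strictly, and is at
least every other non-loop sample. -/
def helper87_Q (M : Matroid E) (e : E) (S V : E → ℝ) : Prop :=
  (∀ f ∈ NL M, f ≠ e → S f ≤ V e) ∧ S e < V e ∧ (∀ f ∈ NL M, f ≠ e → V f < V e)

/-- All non-loop values other than that of `e` are at most the largest non-loop sample. -/
def helper87_Good (M : Matroid E) (e : E) (S V : E → ℝ) : Prop :=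
  ∀ g ∈ NL M, g ≠ e → V g ≤ topS M S

/-- `Q e` holds, and `g` has the largest value among the non-loops other than `e`, above the
largest non-loop sample. -/
def helper87_Bad (M : Matroid E) (e g : E) (S V : E → ℝ) : Prop :=
  helper87_Q M e S V ∧ topS M S < V g ∧ ∀ h ∈ NL M, h ≠ e → V h ≤ V g

/-- The sample of `g` is strictly the largest non-loop sample. -/
def helper87_Ustr (M : Matroid E) (g : E) (S : E → ℝ) : Prop :=
  ∀ f ∈ NL M, f ≠ g → S f < S g

theorem helper87_E0_nonneg (M : Matroid E) (S V : E → ℝ) : 0 ≤ E0 M S V := by
  unfold E0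
  split_ifs
  · exact helper87_topS_nonneg M S
  · exact le_refl 0

theorem helper87_step1 (M : Matroid E) (S V : E → ℝ) (hS : ∀ e, 0 ≤ S e) :
    topS M S ≤ E0 M S V + ∑ e ∈ NL M, helper87_h M e S V := by
  have hE0 := helper87_E0_nonneg M S V
  have hh : ∀ e ∈ NL M, 0 ≤ helper87_h M e S V := by
    intro e _
    unfold helper87_h
    split_ifs
    · exact hS e
    · exact le_refl 0
  have hsum := Finset.sum_nonneg hh
  by_cases hex : ∃ e ∈ NL M, topS M S ≤ V e
  · have h0 : E0 M S V = topS M S := by
      unfold E0
      rw [if_pos hex]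
    linarith
  · by_cases hne : (NL M).Nonempty
    · obtain ⟨e, he, hSe⟩ := helper87_exists_eq_topS M S hS hne
      have hv : helper87_h M e S V = topS M S := by
        unfold helper87_h
        rw [if_pos, hSe]
        refine ⟨fun f hf _ => ?_, fun f hf => ?_⟩
        · rw [hSe]; exact helper87_le_topS M S hf
        · rw [hSe]
          by_contra hcon
          exact hex ⟨f, hf, not_lt.mp hcon⟩
      have h1 := Finset.single_le_sum hh he
      linarith
    · rw [Finset.not_nonempty_iff_eq_empty] at hne
      have h1 := helper87_topS_eq_zero M S hne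
      linarith

theorem helper87_step2 (M : Matroid E) (S V : E → ℝ) (hV : ∀ e, 0 ≤ V e) {e : E}
    (he : e ∈ NL M) :
    helper87_h M e (Function.update S e (V e)) (Function.update V e (S e))
      ≤ if helper87_Q M e S V then V e else 0 := by
  by_cases hc : (∀ f ∈ NL M, f ≠ e →
      Function.update S e (V e) f ≤ Function.update S e (V e) e) ∧
      (∀ f ∈ NL M, Function.update V e (S e) f < Function.update S e (V e) e)
  · have hQ : helper87_Q M e S V := by
      obtain ⟨ha, hb⟩ := hc
      simp only [Function.update_self] at ha hb
      refine ⟨fun f hf hfe => ?_, ?_, fun f hf hfe => ?_⟩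
      · have h1 := ha f hf hfe
        rwa [Function.update_of_ne hfe] at h1
      · have h1 := hb e he
        rwa [Function.update_self] at h1
      · have h1 := hb f hf
        rwa [Function.update_of_ne hfe] at h1
    unfold helper87_h
    rw [if_pos hc, if_pos hQ, Function.update_self]
  · unfold helper87_h
    rw [if_neg hc]
    split_ifs
    · exact hV e
    · exact le_refl 0

theorem helper87_step3 (M : Matroid E) (S V : E → ℝ) (hV : ∀ e, 0 ≤ V e) (e : E) :
    (if helper87_Q M e S V ∧ ¬ helper87_Good M e S V then V e else 0)
      ≤ ∑ g ∈ (NL M).erase e, if helper87_Bad M e g S V then V e else 0 := by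
  have hterm : ∀ g ∈ (NL M).erase e, 0 ≤ (if helper87_Bad M e g S V then V e else 0) := by
    intro g _
    split_ifs
    · exact hV e
    · exact le_refl 0
  by_cases h : helper87_Q M e S V ∧ ¬ helper87_Good M e S V
  · rw [if_pos h]
    obtain ⟨hQ, hG⟩ := h
    unfold helper87_Good at hG
    simp only [not_forall, not_le] at hG
    obtain ⟨g0, hg0, hg0e, hlt⟩ := hG
    have hg0' : g0 ∈ (NL M).erase e := Finset.mem_erase.mpr ⟨hg0e, hg0⟩
    obtain ⟨g, hg, hmax⟩ := Finset.exists_max_image ((NL M).erase e) V ⟨g0, hg0'⟩
    have hBad : helper87_Bad M e g S V :=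
      ⟨hQ, lt_of_lt_of_le hlt (hmax g0 hg0'),
        fun h hh hhe => hmax h (Finset.mem_erase.mpr ⟨hhe, hh⟩)⟩
    have h1 := Finset.single_le_sum hterm hg
    rw [if_pos hBad] at h1
    exact h1
  · rw [if_neg h]
    exact Finset.sum_nonneg hterm

theorem helper87_step4 (M : Matroid E) (S V : E → ℝ) (hS : ∀ e, 0 ≤ S e)
    (hV : ∀ e, 0 ≤ V e) {e g : E} (hg : g ∈ NL M) (hge : g ≠ e) :
    (if helper87_Bad M e g (Function.update S g (V g)) (Function.update V g (S g))
        then V e else 0)
      ≤ if helper87_Q M e S V ∧ helper87_Good M e S V ∧ helper87_Ustr M g S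
        then V e else 0 := by
  by_cases hB : helper87_Bad M e g (Function.update S g (V g)) (Function.update V g (S g))
  · rw [if_pos hB]
    obtain ⟨⟨hQ1, hQ2, hQ3⟩, hT, hmax⟩ := hB
    have heg : e ≠ g := fun h => hge h.symm
    rw [Function.update_self] at hT
    rw [Function.update_of_ne heg, Function.update_of_ne heg] at hQ2
    have hVgSg : V g < S g := by
      have h1 := helper87_le_topS M (Function.update S g (V g)) hg
      rw [Function.update_self] at h1
      linarith
    have hU : helper87_Ustr M g S := by
      intro f hf hfg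
      have h1 := helper87_le_topS M (Function.update S g (V g)) hf
      rw [Function.update_of_ne hfg] at h1
      linarith
    have hTS : topS M S = S g := by
      apply le_antisymm
      · apply helper87_topS_le M S (hS g)
        intro f hf
        by_cases hfg : f = g
        · rw [hfg]
        · exact le_of_lt (hU f hf hfg)
      · exact helper87_le_topS M S hg
    have hSgVe : S g < V e := by
      have h1 := hQ3 g hg hge
      rwa [Function.update_self, Function.update_of_ne heg] at h1
    have hQ' : helper87_Q M e S V := by
      refine ⟨fun f hf hfe => ?_, hQ2, fun f hf hfe => ?_⟩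
      · by_cases hfg : f = g
        · rw [hfg]; exact le_of_lt hSgVe
        · have h1 := hQ1 f hf hfe
          rwa [Function.update_of_ne hfg, Function.update_of_ne heg] at h1
      · by_cases hfg : f = g
        · rw [hfg]; linarith
        · have h1 := hQ3 f hf hfe
          rwa [Function.update_of_ne hfg, Function.update_of_ne heg] at h1
    have hG' : helper87_Good M e S V := by
      intro h hh hhe
      rw [hTS]
      by_cases hhg : h = g
      · rw [hhg]; exact le_of_lt hVgSg
      · have h1 := hmax h hh hhe
        rwa [Function.update_of_ne hhg, Function.update_self] at h1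
    rw [if_pos ⟨hQ', hG', hU⟩]
  · rw [if_neg hB]
    split_ifs
    · exact hV e
    · exact le_refl 0

theorem helper87_step5 (M : Matroid E) (S V : E → ℝ) (hV : ∀ e, 0 ≤ V e) (e : E) :
    ∑ g ∈ (NL M).erase e,
        (if helper87_Q M e S V ∧ helper87_Good M e S V ∧ helper87_Ustr M g S then V e else 0)
      ≤ if helper87_Q M e S V ∧ helper87_Good M e S V then V e else 0 := by
  by_cases hQG : helper87_Q M e S V ∧ helper87_Good M e S V
  · rw [if_pos hQG]
    have hcong : ∀ g ∈ (NL M).erase e,
        (if helper87_Q M e S V ∧ helper87_Good M e S V ∧ helper87_Ustr M g S then V e else 0)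
          = if helper87_Ustr M g S then V e else 0 := by
      intro g _
      by_cases hU : helper87_Ustr M g S
      · rw [if_pos ⟨hQG.1, hQG.2, hU⟩, if_pos hU]
      · rw [if_neg (fun h => hU h.2.2), if_neg hU]
    rw [Finset.sum_congr rfl hcong]
    apply helper87_sum_ite_le _ _ _ (hV e)
    intro a ha b hb hUa hUb
    by_contra hab
    have h1 := hUa b (Finset.mem_of_mem_erase hb) (fun h => hab h.symm)
    have h2 := hUb a (Finset.mem_of_mem_erase ha) hab
    linarith
  · rw [if_neg hQG]
    apply le_of_eq
    apply Finset.sum_eq_zero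
    intro g _
    rw [if_neg (fun h => hQG ⟨h.1, h.2.1⟩)]

theorem helper87_step6 (M : Matroid E) (S V : E → ℝ) (hV : ∀ e, 0 ≤ V e) :
    ∑ e ∈ NL M, (if helper87_Q M e S V ∧ helper87_Good M e S V then V e else 0)
      ≤ E0 M S V + EA M S V := by
  have hE0 := helper87_E0_nonneg M S V
  have hEAterm : ∀ e ∈ NL M, 0 ≤
      (if topS M S < V e ∧ ∀ e' ∈ NL M, e' ≠ e → V e' ≤ topS M S then V e else 0) := by
    intro e _
    split_ifs
    · exact hV e
    · exact le_refl 0
  have hEA : 0 ≤ EA M S V := Finset.sum_nonneg hEAterm
  by_cases hex : ∃ e ∈ NL M, helper87_Q M e S V ∧ helper87_Good M e S V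
  · obtain ⟨e1, he1, hQ, hG⟩ := hex
    have hcong : ∀ e ∈ NL M,
        (if helper87_Q M e S V ∧ helper87_Good M e S V then V e else 0)
          = if e = e1 then V e else 0 := by
      intro e he
      by_cases hee : e = e1
      · rw [if_pos hee, if_pos (hee ▸ ⟨hQ, hG⟩)]
      · rw [if_neg hee, if_neg]
        rintro ⟨hQe, _⟩
        have h1 := hQ.2.2 e he hee
        have h2 := hQe.2.2 e1 he1 (fun h => hee h.symm)
        linarith
    rw [Finset.sum_congr rfl hcong, Finset.sum_ite_eq' (NL M) e1 V, if_pos he1]
    have hT : topS M S ≤ V e1 := by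
      apply helper87_topS_le M S (hV e1)
      intro f hf
      by_cases hfe : f = e1
      · rw [hfe]; exact le_of_lt hQ.2.1
      · exact hQ.1 f hf hfe
    rcases eq_or_lt_of_le hT with heq | hlt
    · have h0 : E0 M S V = topS M S := by
        unfold E0
        rw [if_pos ⟨e1, he1, hT⟩]
      linarith
    · have h1 := Finset.single_le_sum hEAterm he1
      rw [if_pos ⟨hlt, hG⟩] at h1
      have h2 : V e1 ≤ EA M S V := h1
      linarith
  · have h0 : ∑ e ∈ NL M, (if helper87_Q M e S V ∧ helper87_Good M e S V then V e else 0)
        = 0 := by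
      apply Finset.sum_eq_zero
      intro e he
      rw [if_neg (fun h => hex ⟨e, he, h⟩)]
    rw [h0]
    linarith

/-- (L2): the mean of the largest non-loop sample is at most three times the mean of `E0`
plus twice the mean of `EA`. -/
theorem helper87_exp_T_le (M : Matroid E) {Ω : Type} [Fintype Ω] (p val : E → Ω → ℝ)
    (hp : ∀ e ω, 0 ≤ p e ω) (hval : ∀ e ω, 0 ≤ val e ω) :
    ∑ s : E → Ω, ∑ v : E → Ω, wt p s * wt p v * topS M (vals val s)
      ≤ 3 * ∑ s : E → Ω, ∑ v : E → Ω, wt p s * wt p v * E0 M (vals val s) (vals val v)
        + 2 * ∑ s : E → Ω, ∑ v : E → Ω, wt p s * wt p v * EA M (vals val s) (vals val v) := by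
  have hnn : ∀ (s : E → Ω) (e : E), 0 ≤ vals val s e := fun s e => hval e (s e)
  have h1 : helper87_Ex p (fun s _ => topS M (vals val s))
      ≤ helper87_Ex p (fun s v => E0 M (vals val s) (vals val v))
        + ∑ e ∈ NL M, helper87_Ex p (fun s v => helper87_h M e (vals val s) (vals val v)) := by
    calc helper87_Ex p (fun s _ => topS M (vals val s))
        ≤ helper87_Ex p (fun s v => E0 M (vals val s) (vals val v)
            + ∑ e ∈ NL M, helper87_h M e (vals val s) (vals val v)) :=
          helper87_Ex_mono p hp (fun s v => helper87_step1 M _ _ (hnn s))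
      _ = helper87_Ex p (fun s v => E0 M (vals val s) (vals val v))
          + helper87_Ex p (fun s v => ∑ e ∈ NL M, helper87_h M e (vals val s) (vals val v)) :=
          helper87_Ex_add p _ _
      _ = _ := by rw [helper87_Ex_sum]
  have h2 : ∀ e ∈ NL M, helper87_Ex p (fun s v => helper87_h M e (vals val s) (vals val v))
      ≤ 2 * helper87_Ex p (fun s v =>
          if helper87_Q M e (vals val s) (vals val v) ∧ helper87_Good M e (vals val s) (vals val v)
          then vals val v e else 0) := by
    intro e he
    have hA : helper87_Ex p (fun s v => helper87_h M e (vals val s) (vals val v))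
        ≤ helper87_Ex p (fun s v =>
            if helper87_Q M e (vals val s) (vals val v) then vals val v e else 0) := by
      calc helper87_Ex p (fun s v => helper87_h M e (vals val s) (vals val v))
          = helper87_Ex p (fun s v => helper87_h M e (vals val (Function.update s e (v e)))
              (vals val (Function.update v e (s e)))) :=
            helper87_Ex_swap p _ e
        _ ≤ _ := helper87_Ex_mono p hp (fun s v => by
            rw [helper87_vals_update, helper87_vals_update]
            exact helper87_step2 M (vals val s) (vals val v) (hnn v) he)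
    have hsplit : (fun (s v : E → Ω) =>
          if helper87_Q M e (vals val s) (vals val v) then vals val v e else 0)
        = (fun s v =>
          (if helper87_Q M e (vals val s) (vals val v) ∧
              helper87_Good M e (vals val s) (vals val v) then vals val v e else 0)
          + (if helper87_Q M e (vals val s) (vals val v) ∧
              ¬ helper87_Good M e (vals val s) (vals val v) then vals val v e else 0)) := by
      funext s v
      by_cases hQ : helper87_Q M e (vals val s) (vals val v)
      · by_cases hG : helper87_Good M e (vals val s) (vals val v)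
        · rw [if_pos hQ, if_pos ⟨hQ, hG⟩, if_neg (fun h => h.2 hG), add_zero]
        · rw [if_pos hQ, if_neg (fun h => hG h.2), if_pos ⟨hQ, hG⟩, zero_add]
      · rw [if_neg hQ, if_neg (fun h => hQ h.1), if_neg (fun h => hQ h.1), add_zero]
    have hN : helper87_Ex p (fun s v =>
          if helper87_Q M e (vals val s) (vals val v) ∧
              ¬ helper87_Good M e (vals val s) (vals val v) then vals val v e else 0)
        ≤ helper87_Ex p (fun s v =>
          if helper87_Q M e (vals val s) (vals val v) ∧
              helper87_Good M e (vals val s) (vals val v) then vals val v e else 0) := by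
      calc helper87_Ex p (fun s v =>
            if helper87_Q M e (vals val s) (vals val v) ∧
              ¬ helper87_Good M e (vals val s) (vals val v) then vals val v e else 0)
          ≤ helper87_Ex p (fun s v => ∑ g ∈ (NL M).erase e,
              if helper87_Bad M e g (vals val s) (vals val v) then vals val v e else 0) :=
            helper87_Ex_mono p hp (fun s v => helper87_step3 M _ _ (hnn v) e)
        _ = ∑ g ∈ (NL M).erase e, helper87_Ex p (fun s v =>
              if helper87_Bad M e g (vals val s) (vals val v) then vals val v e else 0) :=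
            helper87_Ex_sum p _ _
        _ ≤ ∑ g ∈ (NL M).erase e, helper87_Ex p (fun s v =>
              if helper87_Q M e (vals val s) (vals val v) ∧
                helper87_Good M e (vals val s) (vals val v) ∧ helper87_Ustr M g (vals val s)
              then vals val v e else 0) := by
            apply Finset.sum_le_sum
            intro g hg
            have hgNL := Finset.mem_of_mem_erase hg
            have hge := Finset.ne_of_mem_erase hg
            have hne : e ≠ g := fun h => hge h.symm
            calc helper87_Ex p (fun s v =>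
                  if helper87_Bad M e g (vals val s) (vals val v) then vals val v e else 0)
                = helper87_Ex p (fun s v =>
                  if helper87_Bad M e g (vals val (Function.update s g (v g)))
                    (vals val (Function.update v g (s g)))
                  then vals val (Function.update v g (s g)) e else 0) :=
                  helper87_Ex_swap p _ g
              _ ≤ _ := helper87_Ex_mono p hp (fun s v => by
                  rw [helper87_vals_update, helper87_vals_update, Function.update_of_ne hne]
                  exact helper87_step4 M (vals val s) (vals val v) (hnn s) (hnn v) hgNL hge)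
        _ = helper87_Ex p (fun s v => ∑ g ∈ (NL M).erase e,
              if helper87_Q M e (vals val s) (vals val v) ∧
                helper87_Good M e (vals val s) (vals val v) ∧ helper87_Ustr M g (vals val s)
              then vals val v e else 0) :=
            (helper87_Ex_sum p _ _).symm
        _ ≤ _ := helper87_Ex_mono p hp (fun s v => helper87_step5 M _ _ (hnn v) e)
    rw [hsplit, helper87_Ex_add] at hA
    linarith
  have h3 : ∑ e ∈ NL M, helper87_Ex p (fun s v =>
        if helper87_Q M e (vals val s) (vals val v) ∧ helper87_Good M e (vals val s) (vals val v)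
        then vals val v e else 0)
      ≤ helper87_Ex p (fun s v => E0 M (vals val s) (vals val v))
        + helper87_Ex p (fun s v => EA M (vals val s) (vals val v)) := by
    calc ∑ e ∈ NL M, helper87_Ex p (fun s v =>
          if helper87_Q M e (vals val s) (vals val v) ∧
            helper87_Good M e (vals val s) (vals val v)
          then vals val v e else 0)
        = helper87_Ex p (fun s v => ∑ e ∈ NL M,
          if helper87_Q M e (vals val s) (vals val v) ∧
            helper87_Good M e (vals val s) (vals val v)
          then vals val v e else 0) := (helper87_Ex_sum p _ _).symm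
      _ ≤ helper87_Ex p (fun s v => E0 M (vals val s) (vals val v)
            + EA M (vals val s) (vals val v)) :=
          helper87_Ex_mono p hp (fun s v => helper87_step6 M _ _ (hnn v))
      _ = _ := helper87_Ex_add p _ _
  have h4 : ∑ e ∈ NL M, helper87_Ex p (fun s v => helper87_h M e (vals val s) (vals val v))
      ≤ 2 * ∑ e ∈ NL M, helper87_Ex p (fun s v =>
        if helper87_Q M e (vals val s) (vals val v) ∧ helper87_Good M e (vals val s) (vals val v)
        then vals val v e else 0) := by
    rw [Finset.mul_sum]
    exact Finset.sum_le_sum h2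
  have key : helper87_Ex p (fun s _ => topS M (vals val s))
      ≤ 3 * helper87_Ex p (fun s v => E0 M (vals val s) (vals val v))
        + 2 * helper87_Ex p (fun s v => EA M (vals val s) (vals val v)) := by
    linarith
  exact key

end

end Vale.Agent.Lib.P331
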