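import Vale.Agent.Lib.P331.helper87.Partition

/-!
P331: the cycle matroid of a finite multigraph is covered by two partition matroids with
loss `2` (the partition of the edges that are not loops by their higher endpoint, and the one
by their lower endpoint, for a fixed linear order of the vertices).

A multigraph is given by the endpoint maps `src tgt : E → V`.  A set of edges is a forest if
each of its nonempty subsets has a leaf: a vertex that is an endpoint of exactly one edge of
the subset, this edge not being a loop.
-/

namespace Vale.Agent.Lib.P331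

open Finset

noncomputable section

open Classical

variable {E : Type} [Fintype E] [DecidableEq E] {V : Type}

/-- Every nonempty subset of the edge set `I` has a leaf: a vertex `x` and an edge `e` of the
subset that is not a loop, such that `e` is the only edge of the subset with endpoint `x`. -/
def LeafForest (src tgt : E → V) (I : Finset E) : Prop :=
  ∀ T : Finset E, T ⊆ I → T.Nonempty →
    ∃ x : V, ∃ e ∈ T, src e ≠ tgt e ∧ (src e = x ∨ tgt e = x) ∧
      ∀ e' ∈ T, (src e' = x ∨ tgt e' = x) → e' = e

omit [Fintype E] [DecidableEq E] in
theorem leafForest_of_max_inj [LinearOrder V] (src tgt : E → V) (T : Finset E)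
    (hloop : ∀ e ∈ T, src e ≠ tgt e)
    (hinj : ∀ e ∈ T, ∀ e' ∈ T, max (src e) (tgt e) = max (src e') (tgt e') → e = e') :
    LeafForest src tgt T := by
  intro T' hsub hne
  obtain ⟨e0, he0, hmax⟩ := Finset.exists_max_image T' (fun e => max (src e) (tgt e)) hne
  refine ⟨max (src e0) (tgt e0), e0, he0, hloop e0 (hsub he0), ?_, ?_⟩
  · rcases max_choice (src e0) (tgt e0) with h | h
    · left
      exact h.symm
    · right
      exact h.symm
  · intro e' he' hx
    apply hinj e' (hsub he') e0 (hsub he0)
    apply le_antisymm (hmax e' he')
    rcases hx with h | h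
    · rw [← h]
      exact le_max_left _ _
    · rw [← h]
      exact le_max_right _ _

omit [Fintype E] [DecidableEq E] in
theorem leafForest_of_min_inj [LinearOrder V] (src tgt : E → V) (T : Finset E)
    (hloop : ∀ e ∈ T, src e ≠ tgt e)
    (hinj : ∀ e ∈ T, ∀ e' ∈ T, min (src e) (tgt e) = min (src e') (tgt e') → e = e') :
    LeafForest src tgt T := by
  intro T' hsub hne
  obtain ⟨e0, he0, hmin⟩ := Finset.exists_min_image T' (fun e => min (src e) (tgt e)) hne
  refine ⟨min (src e0) (tgt e0), e0, he0, hloop e0 (hsub he0), ?_, ?_⟩
  · rcases min_choice (src e0) (tgt e0) with h | h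
    · left
      exact h.symm
    · right
      exact h.symm
  · intro e' he' hx
    apply hinj e' (hsub he') e0 (hsub he0)
    apply le_antisymm _ (hmin e' he')
    rcases hx with h | h
    · rw [← h]
      exact min_le_left _ _
    · rw [← h]
      exact min_le_right _ _

omit [Fintype E] in
/-- The edges of a forest can be assigned to endpoints injectively. -/
theorem exists_child (src tgt : E → V) (n : ℕ) :
    ∀ I : Finset E, I.card = n → LeafForest src tgt I →
      ∃ c : E → V, (∀ e ∈ I, c e = src e ∨ c e = tgt e) ∧
        (∀ e ∈ I, ∀ e' ∈ I, c e = c e' → e = e') := by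
  induction n with
  | zero =>
    intro I hI _
    have h0 : I = ∅ := Finset.card_eq_zero.mp hI
    subst h0
    exact ⟨src, by simp, by simp⟩
  | succ n ih =>
    intro I hI hF
    have hne : I.Nonempty := by
      rw [← Finset.card_pos]
      omega
    obtain ⟨x, e, he, _, hx, huniq⟩ := hF I (Finset.Subset.refl _) hne
    obtain ⟨c', hc1, hc2⟩ := ih (I.erase e)
      (by rw [Finset.card_erase_of_mem he]; omega)
      (fun T hT hTne => hF T (hT.trans (Finset.erase_subset _ _)) hTne)
    have hend : ∀ e2 ∈ I, e2 ≠ e → c' e2 ≠ x := by
      intro e2 he2 h2 hcx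
      apply h2
      apply huniq e2 he2
      rcases hc1 e2 (Finset.mem_erase.mpr ⟨h2, he2⟩) with h | h
      · left
        rw [← h, hcx]
      · right
        rw [← h, hcx]
    refine ⟨Function.update c' e x, ?_, ?_⟩
    · intro e1 he1
      by_cases h : e1 = e
      · subst h
        rw [Function.update_self]
        rcases hx with h | h
        · left
          exact h.symm
        · right
          exact h.symm
      · rw [Function.update_of_ne h]
        exact hc1 e1 (Finset.mem_erase.mpr ⟨h, he1⟩)
    · intro e1 he1 e2 he2 h12
      by_cases h1 : e1 = e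
      · by_cases h2 : e2 = e
        · rw [h1, h2]
        · exfalso
          rw [h1, Function.update_self, Function.update_of_ne h2] at h12
          exact hend e2 he2 h2 h12.symm
      · by_cases h2 : e2 = e
        · exfalso
          rw [h2, Function.update_self, Function.update_of_ne h1] at h12
          exact hend e1 he1 h1 h12
        · rw [Function.update_of_ne h1, Function.update_of_ne h2] at h12
          exact hc2 e1 (Finset.mem_erase.mpr ⟨h1, he1⟩) e2 (Finset.mem_erase.mpr ⟨h2, he2⟩) h12

/-- The block maps of a multigraph: an edge that is not a loop lies in the block of its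
higher endpoint (for `true`) or of its lower endpoint (for `false`). -/
def graphBlk [LinearOrder V] (src tgt : E → V) (b : Bool) (e : E) : Option V :=
  if src e = tgt e then none
  else some (if b then max (src e) (tgt e) else min (src e) (tgt e))

omit [Fintype E] in
/-- The cycle matroid of a multigraph is covered with loss `2` by the two partitions of its
edges by their higher and by their lower endpoints. -/
theorem graphic_partition (src tgt : E → V) (M : Matroid E)
    (hM : ∀ I : Finset E, M.Indep (I : Set E) ↔
      ∀ T : Finset E, T ⊆ I → T.Nonempty →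
        ∃ x : V, ∃ e ∈ T, src e ≠ tgt e ∧ (src e = x ∨ tgt e = x) ∧
          ∀ e' ∈ T, (src e' = x ∨ tgt e' = x) → e' = e) :
    ∃ blk : Bool → E → Option V,
      (∀ (ρ : Bool) (T : Finset E), (∀ e ∈ T, blk ρ e ≠ none) →
        (∀ e ∈ T, ∀ e' ∈ T, blk ρ e = blk ρ e' → e = e') → M.Indep (T : Set E)) ∧
      (∀ v : E → ℝ, (∀ e, 0 ≤ v e) → ∀ I : Finset E, M.Indep (I : Set E) →
        ∃ T : Bool → Finset E, (∀ ρ, ∀ e ∈ T ρ, blk ρ e ≠ none) ∧
          (∀ ρ, ∀ e ∈ T ρ, ∀ e' ∈ T ρ, blk ρ e = blk ρ e' → e = e') ∧
          ∑ e ∈ I, v e ≤ 2 * ((1 / (Fintype.card Bool : ℝ)) * ∑ ρ, ∑ e ∈ T ρ, v e)) := by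
  obtain ⟨inst, _⟩ := exists_wellFoundedLT V
  have hblk_none : ∀ (b : Bool) (e : E), graphBlk src tgt b e ≠ none ↔ src e ≠ tgt e := by
    intro b e
    unfold graphBlk
    by_cases h : src e = tgt e
    · simp [h]
    · simp [h]
  have hblk_true : ∀ e e' : E, src e ≠ tgt e → src e' ≠ tgt e' →
      (graphBlk src tgt true e = graphBlk src tgt true e' ↔
        max (src e) (tgt e) = max (src e') (tgt e')) := by
    intro e e' h h'
    unfold graphBlk
    simp [h, h']
  have hblk_false : ∀ e e' : E, src e ≠ tgt e → src e' ≠ tgt e' →
      (graphBlk src tgt false e = graphBlk src tgt false e' ↔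
        min (src e) (tgt e) = min (src e') (tgt e')) := by
    intro e e' h h'
    unfold graphBlk
    simp [h, h']
  refine ⟨graphBlk src tgt, ?_, ?_⟩
  · intro ρ T hna hinj
    rw [hM]
    have hloop : ∀ e ∈ T, src e ≠ tgt e := fun e he => (hblk_none ρ e).mp (hna e he)
    cases ρ with
    | true =>
      apply leafForest_of_max_inj src tgt T hloop
      intro e he e' he' hmm
      exact hinj e he e' he' ((hblk_true e e' (hloop e he) (hloop e' he')).mpr hmm)
    | false =>
      apply leafForest_of_min_inj src tgt T hloop
      intro e he e' he' hmm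
      exact hinj e he e' he' ((hblk_false e e' (hloop e he) (hloop e' he')).mpr hmm)
  · intro v _ I hI
    rw [hM] at hI
    obtain ⟨c, hc1, hc2⟩ := exists_child src tgt I.card I rfl hI
    have hloopI : ∀ e ∈ I, src e ≠ tgt e := by
      intro e he
      obtain ⟨x, e0, he0, hl, _, _⟩ := hI {e} (by simpa using he) (by simp)
      have h0 : e0 = e := by simpa using he0
      rw [← h0]
      exact hl
    have hmin : ∀ e ∈ I, ¬ c e = max (src e) (tgt e) → c e = min (src e) (tgt e) := by
      intro e heI hne
      rcases hc1 e heI with h | h
      · rcases le_total (src e) (tgt e) with h2 | h2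
        · rw [min_eq_left h2]
          exact h
        · exfalso
          apply hne
          rw [max_eq_left h2]
          exact h
      · rcases le_total (src e) (tgt e) with h2 | h2
        · exfalso
          apply hne
          rw [max_eq_right h2]
          exact h
        · rw [min_eq_right h2]
          exact h
    obtain ⟨Tf, hTt, hTf⟩ : ∃ T : Bool → Finset E,
        T true = I.filter (fun e => c e = max (src e) (tgt e)) ∧
        T false = I.filter (fun e => ¬ c e = max (src e) (tgt e)) :=
      ⟨fun b => if b = true then I.filter (fun e => c e = max (src e) (tgt e))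
        else I.filter (fun e => ¬ c e = max (src e) (tgt e)), by simp, by simp⟩
    refine ⟨Tf, ?_, ?_, ?_⟩
    · intro ρ e he
      have heI : e ∈ I := by
        cases ρ with
        | true =>
          rw [hTt] at he
          exact (Finset.mem_filter.mp he).1
        | false =>
          rw [hTf] at he
          exact (Finset.mem_filter.mp he).1
      exact (hblk_none ρ e).mpr (hloopI e heI)
    · intro ρ e he e' he' hb
      cases ρ with
      | true =>
        rw [hTt, Finset.mem_filter] at he he'
        apply hc2 e he.1 e' he'.1
        rw [he.2, he'.2]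
        exact (hblk_true e e' (hloopI e he.1) (hloopI e' he'.1)).mp hb
      | false =>
        rw [hTf, Finset.mem_filter] at he he'
        apply hc2 e he.1 e' he'.1
        rw [hmin e he.1 he.2, hmin e' he'.1 he'.2]
        exact (hblk_false e e' (hloopI e he.1) (hloopI e' he'.1)).mp hb
    · have hsum : ∑ ρ : Bool, ∑ e ∈ Tf ρ, v e = ∑ e ∈ I, v e := by
        rw [Fintype.sum_bool, hTt, hTf]
        exact Finset.sum_filter_add_sum_filter_not I _ v
      rw [hsum]
      have hc : (Fintype.card Bool : ℝ) = 2 := by simp
      rw [hc]
      linarith

end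

end Vale.Agent.Lib.P331
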