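import Vale.Agent.Lib.P331.Assembly

/-!
P331: one-sample rules against the almighty adversary for matroids that are covered by a
family of partition matroids (constant loss).

Given a family, indexed by `ρ : P`, of maps `blk ρ : E → Option ι` (the element `e` lies in the
block `blk ρ e`, or in no block), the rule `partRule blk` draws `ρ` and a mode, and runs in
every block of the partition `ρ` the threshold rule for the matroid of rank one on that block.
-/

namespace Vale.Agent.Lib.P331

open Finset

noncomputable section

open Classical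

variable {E : Type} [Fintype E] [DecidableEq E]

/-- The matroid on `E` whose independent sets are the subsets of `B` with at most one
element. -/
def blockMatroid (B : Set E) : Matroid E :=
  (IndepMatroid.ofFinite (Set.toFinite (Set.univ : Set E))
    (fun I => I ⊆ B ∧ I.Subsingleton)
    ⟨Set.empty_subset _, Set.subsingleton_empty⟩
    (fun _ _ hJ hIJ => ⟨hIJ.trans hJ.1, hJ.2.anti hIJ⟩)
    (by
      intro I J hI hJ hlt
      have hJ1 : J.ncard ≤ 1 := Set.ncard_le_one_iff_subsingleton.mpr hJ.2
      have hI0 : I.ncard = 0 := by omega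
      have hIe : I = ∅ := (Set.ncard_eq_zero (Set.toFinite I)).mp hI0
      have hJne : J.Nonempty := by
        rw [← Set.ncard_pos (Set.toFinite J)]
        omega
      obtain ⟨e, he⟩ := hJne
      refine ⟨e, he, by simp [hIe], ?_, ?_⟩
      · rw [hIe]
        intro x hx
        have : x = e := by simpa using hx
        rw [this]
        exact hJ.1 he
      · rw [hIe]
        simp)
    (fun I _ => Set.subset_univ I)).matroid

omit [DecidableEq E] in
theorem blockMatroid_indep_iff (B I : Set E) :
    (blockMatroid B).Indep I ↔ I ⊆ B ∧ I.Subsingleton := Iff.rfl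

/-- The block with index `b` of the partition with index `ρ`. -/
def blockSet {P ι : Type} (blk : P → E → Option ι) (ρ : P) (b : ι) : Set E :=
  {e | blk ρ e = some b}

/-- One arrival for the rule `partRule`: the element is handed to the threshold rule of its
block (and rejected if it lies in no block). -/
def partStep {P ι : Type} (blk : P → E → Option ι) (m : P × (ι → ThrMem E)) (e : E) (x : ℝ) :
    Bool × (P × (ι → ThrMem E)) :=
  (blk m.1 e).elim (false, m) (fun b =>
    ((thrStep (blockMatroid (blockSet blk m.1 b)) (m.2 b) e x).1,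
      (m.1, Function.update m.2 b (thrStep (blockMatroid (blockSet blk m.1 b)) (m.2 b) e x).2)))

/-- The rule for a family `blk` of partitions: the seed is a pair (index `ρ` of a partition,
mode `r`); in every block of the partition `ρ` the rule runs the threshold rule `thrRule` of
the rank-one matroid on that block with the mode `r`. -/
def partRule {P ι : Type} (blk : P → E → Option ι) : OnlineRule E (P × Fin (0 + 10)) where
  σ := P × (ι → ThrMem E)
  init := fun S r =>
    (r.1, fun b => (thrRule (blockMatroid (blockSet blk r.1 b)) 0).init S r.2)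
  step := partStep blk

section sim

variable {P ι : Type} (blk : P → E → Option ι)

theorem partRule_go_nil (V : E → ℝ) (m : P × (ι → ThrMem E)) :
    (partRule blk).go V [] m = ∅ := rfl

theorem partRule_go_cons (V : E → ℝ) (e : E) (l : List E) (m : P × (ι → ThrMem E)) :
    (partRule blk).go V (e :: l) m =
      if (partStep blk m e (V e)).1 then
        insert e ((partRule blk).go V l (partStep blk m e (V e)).2)
      else (partRule blk).go V l (partStep blk m e (V e)).2 := rfl

theorem thr_go_nil (M : Matroid E) (V : E → ℝ) (m : ThrMem E) :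
    (thrRule M 0).go V [] m = ∅ := rfl

theorem thrStep_not_mem (B : Set E) (m : ThrMem E) (e : E) (x : ℝ) (he : e ∉ B) :
    thrStep (blockMatroid B) m e x = (false, m) := by
  unfold thrStep
  rw [if_neg]
  rintro ⟨_, h⟩
  exact he (((blockMatroid_indep_iff B _).mp h).1 (Set.mem_insert _ _))

theorem thr_go_cons_not_mem (B : Set E) (V : E → ℝ) (e : E) (l : List E) (m : ThrMem E)
    (he : e ∉ B) :
    (thrRule (blockMatroid B) 0).go V (e :: l) m = (thrRule (blockMatroid B) 0).go V l m := by
  rw [H20.go_cons, thrStep_not_mem B m e (V e) he]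
  simp

/-- The simulation lemma: the rule `partRule` accepts exactly the elements that the threshold
rules of the blocks accept. -/
theorem mem_partRule_go (V : E → ℝ) (l : List E) (ρ : P) (m : ι → ThrMem E) (x : E) :
    x ∈ (partRule blk).go V l (ρ, m) ↔
      ∃ b, x ∈ (thrRule (blockMatroid (blockSet blk ρ b)) 0).go V l (m b) := by
  induction l generalizing m with
  | nil =>
    simp [partRule_go_nil, thr_go_nil]
  | cons e l ih =>
    rw [partRule_go_cons]
    cases hb : blk ρ e with
    | none =>
      have hstep : partStep blk (ρ, m) e (V e) = (false, (ρ, m)) := by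
        unfold partStep
        rw [hb]
        rfl
      rw [hstep]
      simp only [Bool.false_eq_true, if_false]
      rw [ih]
      apply exists_congr
      intro b
      rw [thr_go_cons_not_mem]
      show ¬ (blk ρ e = some b)
      rw [hb]
      simp
    | some b0 =>
      have hstep : partStep blk (ρ, m) e (V e)
          = ((thrStep (blockMatroid (blockSet blk ρ b0)) (m b0) e (V e)).1,
              (ρ, Function.update m b0
                (thrStep (blockMatroid (blockSet blk ρ b0)) (m b0) e (V e)).2)) := by
        unfold partStep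
        rw [hb]
        rfl
      rw [hstep]
      have hne : ∀ b, b ≠ b0 →
          (thrRule (blockMatroid (blockSet blk ρ b)) 0).go V (e :: l) (m b)
            = (thrRule (blockMatroid (blockSet blk ρ b)) 0).go V l
                (Function.update m b0
                  (thrStep (blockMatroid (blockSet blk ρ b0)) (m b0) e (V e)).2 b) := by
        intro b hbb
        rw [thr_go_cons_not_mem, Function.update_of_ne hbb]
        show ¬ (blk ρ e = some b)
        rw [hb]
        intro h
        exact hbb (Option.some.inj h).symm
      have heq : (thrRule (blockMatroid (blockSet blk ρ b0)) 0).go V (e :: l) (m b0)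
          = if (thrStep (blockMatroid (blockSet blk ρ b0)) (m b0) e (V e)).1 then
              insert e ((thrRule (blockMatroid (blockSet blk ρ b0)) 0).go V l
                (Function.update m b0
                  (thrStep (blockMatroid (blockSet blk ρ b0)) (m b0) e (V e)).2 b0))
            else (thrRule (blockMatroid (blockSet blk ρ b0)) 0).go V l
                (Function.update m b0
                  (thrStep (blockMatroid (blockSet blk ρ b0)) (m b0) e (V e)).2 b0) := by
        rw [H20.go_cons, Function.update_self]
      constructor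
      · intro hx
        by_cases hc : (thrStep (blockMatroid (blockSet blk ρ b0)) (m b0) e (V e)).1 = true
        · rw [if_pos hc, Finset.mem_insert] at hx
          rcases hx with hx | hx
          · refine ⟨b0, ?_⟩
            rw [heq, if_pos hc, hx]
            exact Finset.mem_insert_self _ _
          · obtain ⟨b, hb2⟩ := (ih _).mp hx
            refine ⟨b, ?_⟩
            by_cases hbb : b = b0
            · subst hbb
              rw [heq, if_pos hc]
              exact Finset.mem_insert_of_mem hb2
            · rw [hne b hbb]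
              exact hb2
        · rw [if_neg hc] at hx
          obtain ⟨b, hb2⟩ := (ih _).mp hx
          refine ⟨b, ?_⟩
          by_cases hbb : b = b0
          · subst hbb
            rw [heq, if_neg hc]
            exact hb2
          · rw [hne b hbb]
            exact hb2
      · rintro ⟨b, hb2⟩
        by_cases hbb : b = b0
        · subst hbb
          rw [heq] at hb2
          by_cases hc : (thrStep (blockMatroid (blockSet blk ρ b)) (m b) e (V e)).1 = true
          · rw [if_pos hc] at hb2 ⊢
            rw [Finset.mem_insert] at hb2 ⊢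
            rcases hb2 with hb2 | hb2
            · exact Or.inl hb2
            · exact Or.inr ((ih _).mpr ⟨b, hb2⟩)
          · rw [if_neg hc] at hb2 ⊢
            exact (ih _).mpr ⟨b, hb2⟩
        · rw [hne b hbb] at hb2
          have h2 := (ih _).mpr ⟨b, hb2⟩
          by_cases hc : (thrStep (blockMatroid (blockSet blk ρ b0)) (m b0) e (V e)).1 = true
          · rw [if_pos hc]
            exact Finset.mem_insert_of_mem h2
          · rw [if_neg hc]
            exact h2

/-- The accepted set of `partRule`, as the union of the accepted sets of the blocks. -/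
theorem mem_partRule_run (S V : E → ℝ) (ρ : P) (r : Fin (0 + 10)) (l : List E) (x : E) :
    x ∈ (partRule blk).run S (ρ, r) V l ↔
      ∃ b, x ∈ (thrRule (blockMatroid (blockSet blk ρ b)) 0).run S r V l :=
  mem_partRule_go blk V l ρ
    (fun b => (thrRule (blockMatroid (blockSet blk ρ b)) 0).init S r) x

/-- An element accepted in the block `b` lies in the block `b`. -/
theorem thr_run_subset (S V : E → ℝ) (ρ : P) (b : ι) (r : Fin (0 + 10)) (l : List E) (x : E)
    (hx : x ∈ (thrRule (blockMatroid (blockSet blk ρ b)) 0).run S r V l) :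
    blk ρ x = some b := by
  have h := helper20_thrRule_indep (blockMatroid (blockSet blk ρ b)) 0 S V r l
  exact ((blockMatroid_indep_iff _ _).mp h).1 (by exact_mod_cast hx)

/-- At most one element is accepted in each block. -/
theorem thr_run_subsingleton (S V : E → ℝ) (ρ : P) (b : ι) (r : Fin (0 + 10)) (l : List E)
    (x y : E)
    (hx : x ∈ (thrRule (blockMatroid (blockSet blk ρ b)) 0).run S r V l)
    (hy : y ∈ (thrRule (blockMatroid (blockSet blk ρ b)) 0).run S r V l) : x = y := by
  have h := helper20_thrRule_indep (blockMatroid (blockSet blk ρ b)) 0 S V r l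
  exact ((blockMatroid_indep_iff _ _).mp h).2 (by exact_mod_cast hx) (by exact_mod_cast hy)

/-- The accepted set of `partRule` avoids the elements outside all blocks and meets every
block at most once. -/
theorem partRule_run_transversal (S V : E → ℝ) (r : P × Fin (0 + 10)) (l : List E) :
    (∀ e ∈ (partRule blk).run S r V l, blk r.1 e ≠ none) ∧
    (∀ e ∈ (partRule blk).run S r V l, ∀ e' ∈ (partRule blk).run S r V l,
      blk r.1 e = blk r.1 e' → e = e') := by
  obtain ⟨ρ, r⟩ := r
  constructor
  · intro e he
    obtain ⟨b, hb⟩ := (mem_partRule_run blk S V ρ r l e).mp he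
    rw [thr_run_subset blk S V ρ b r l e hb]
    simp
  · intro e he e' he' hee
    obtain ⟨b, hb⟩ := (mem_partRule_run blk S V ρ r l e).mp he
    obtain ⟨b', hb'⟩ := (mem_partRule_run blk S V ρ r l e').mp he'
    have h1 := thr_run_subset blk S V ρ b r l e hb
    have h2 := thr_run_subset blk S V ρ b' r l e' hb'
    have hbb : b = b' := by
      show b = b'
      have : some b = some b' := by rw [← h1, ← h2]; exact hee
      exact Option.some.inj this
    subst hbb
    exact thr_run_subsingleton blk S V ρ b r l e e' hb hb'

/-- The weight accepted by `partRule` is the sum of the weights accepted in the blocks. -/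
theorem partRule_run_sum [Fintype ι] (S V : E → ℝ) (ρ : P) (r : Fin (0 + 10)) (l : List E)
    (f : E → ℝ) :
    ∑ e ∈ (partRule blk).run S (ρ, r) V l, f e
      = ∑ b : ι, ∑ e ∈ (thrRule (blockMatroid (blockSet blk ρ b)) 0).run S r V l, f e := by
  have h1 : (partRule blk).run S (ρ, r) V l
      = Finset.univ.biUnion
          (fun b : ι => (thrRule (blockMatroid (blockSet blk ρ b)) 0).run S r V l) := by
    ext x
    rw [mem_partRule_run]
    simp
  rw [h1, Finset.sum_biUnion]
  intro b _ b' _ hbb
  show Disjoint ((thrRule (blockMatroid (blockSet blk ρ b)) 0).run S r V l)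
    ((thrRule (blockMatroid (blockSet blk ρ b')) 0).run S r V l)
  rw [Finset.disjoint_left]
  intro x hx hx'
  have h2 := thr_run_subset blk S V ρ b r l x hx
  have h3 := thr_run_subset blk S V ρ b' r l x hx'
  rw [h2] at h3
  exact hbb (Option.some.inj h3)

end sim

section guarantee

variable {P ι : Type} [Fintype P] [Fintype ι] (blk : P → E → Option ι)

omit [Fintype E] [DecidableEq E] [Fintype P] in
/-- The sum over the blocks of the weights of the parts of a set that avoids the elements
outside all blocks. -/
theorem sum_blocks (ρ : P) (T : Finset E) (hT : ∀ e ∈ T, blk ρ e ≠ none) (f : E → ℝ) :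
    ∑ b : ι, ∑ e ∈ T.filter (fun e => blk ρ e = some b), f e = ∑ e ∈ T, f e := by
  simp only [Finset.sum_filter]
  rw [Finset.sum_comm]
  apply Finset.sum_congr rfl
  intro e he
  obtain ⟨b0, hb0⟩ := Option.ne_none_iff_exists'.mp (hT e he)
  rw [hb0, Finset.sum_eq_single b0]
  · simp
  · intro b _ hb
    rw [if_neg]
    intro h
    exact hb (Option.some.inj h).symm
  · simp

omit [Fintype P] in
/-- The guarantee for one partition `ρ`: the expected weight of a set that meets every block
at most once is at most ten times the average over the modes of the expected accepted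
weight. -/
theorem partRule_block_guarantee (ρ : P) {Ω : Type} [Fintype Ω] (p val : E → Ω → ℝ)
    (hp : ∀ e ω, 0 ≤ p e ω) (hp1 : ∀ e, ∑ ω, p e ω = 1) (hval : ∀ e ω, 0 ≤ val e ω)
    (adv : (E → Ω) → (E → Ω) → P × Fin (0 + 10) → List E)
    (hadv : ∀ s v r e, e ∈ adv s v r)
    (T : (E → Ω) → Finset E) (hT1 : ∀ v, ∀ e ∈ T v, blk ρ e ≠ none)
    (hT2 : ∀ v, ∀ e ∈ T v, ∀ e' ∈ T v, blk ρ e = blk ρ e' → e = e') :
    ∑ v : E → Ω, (∏ e, p e (v e)) * ∑ e ∈ T v, val e (v e)
      ≤ ∑ s : E → Ω, ∑ v : E → Ω, ∑ r : Fin (0 + 10),
          (∏ e, p e (s e)) * (∏ e, p e (v e)) *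
            ∑ e ∈ (partRule blk).run (fun e => val e (s e)) (ρ, r)
              (fun e => val e (v e)) (adv s v (ρ, r)), val e (v e) := by
  have hb : ∀ b : ι,
      ∑ v : E → Ω, (∏ e, p e (v e)) *
          ∑ e ∈ (T v).filter (fun e => blk ρ e = some b), val e (v e)
        ≤ ∑ s : E → Ω, ∑ v : E → Ω, ∑ r : Fin (0 + 10),
            (∏ e, p e (s e)) * (∏ e, p e (v e)) *
              ∑ e ∈ (thrRule (blockMatroid (blockSet blk ρ b)) 0).run (fun e => val e (s e)) r
                (fun e => val e (v e)) (adv s v (ρ, r)), val e (v e) := by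
    intro b
    have hk : ∀ I : Finset E, (blockMatroid (blockSet blk ρ b)).Indep (I : Set E) →
        I.card ≤ 1 := by
      intro I hI
      rw [Finset.card_le_one]
      intro x hx y hy
      exact ((blockMatroid_indep_iff _ _).mp hI).2 (by exact_mod_cast hx)
        (by exact_mod_cast hy)
    have hI : ∀ v : E → Ω, (blockMatroid (blockSet blk ρ b)).Indep
        (((T v).filter (fun e => blk ρ e = some b) : Finset E) : Set E) := by
      intro v
      rw [blockMatroid_indep_iff]
      constructor
      · intro x hx
        have hx' := Finset.mem_filter.mp (Finset.mem_coe.mp hx)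
        exact hx'.2
      · intro x hx y hy
        have hx' := Finset.mem_filter.mp (Finset.mem_coe.mp hx)
        have hy' := Finset.mem_filter.mp (Finset.mem_coe.mp hy)
        exact hT2 v x hx'.1 y hy'.1 (by rw [hx'.2, hy'.2])
    have h := thrRule_guarantee (blockMatroid (blockSet blk ρ b)) 1 0 (by norm_num) hk
      p val hp hp1 hval (fun s v r => adv s v (ρ, r)) (fun s v r e => hadv s v (ρ, r) e)
      (fun v => (T v).filter (fun e => blk ρ e = some b)) hI
    have hc : ((0 : ℕ) : ℝ) + 10 = 10 := by norm_num
    have hc2 : (Fintype.card (Fin (0 + 10)) : ℝ) = 10 := by simp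
    rw [hc, hc2] at h
    refine le_trans h (le_of_eq ?_)
    rw [Finset.mul_sum]
    apply Finset.sum_congr rfl
    intro s _
    rw [Finset.mul_sum]
    apply Finset.sum_congr rfl
    intro v _
    rw [Finset.mul_sum]
    apply Finset.sum_congr rfl
    intro r _
    ring
  calc ∑ v : E → Ω, (∏ e, p e (v e)) * ∑ e ∈ T v, val e (v e)
      = ∑ b : ι, ∑ v : E → Ω, (∏ e, p e (v e)) *
          ∑ e ∈ (T v).filter (fun e => blk ρ e = some b), val e (v e) := by
        rw [Finset.sum_comm]
        apply Finset.sum_congr rfl
        intro v _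
        rw [← Finset.mul_sum, sum_blocks blk ρ (T v) (hT1 v)]
    _ ≤ ∑ b : ι, ∑ s : E → Ω, ∑ v : E → Ω, ∑ r : Fin (0 + 10),
            (∏ e, p e (s e)) * (∏ e, p e (v e)) *
              ∑ e ∈ (thrRule (blockMatroid (blockSet blk ρ b)) 0).run (fun e => val e (s e)) r
                (fun e => val e (v e)) (adv s v (ρ, r)), val e (v e) :=
        Finset.sum_le_sum (fun b _ => hb b)
    _ = _ := by
        rw [Finset.sum_comm]
        apply Finset.sum_congr rfl
        intro s _
        rw [Finset.sum_comm]
        apply Finset.sum_congr rfl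
        intro v _
        rw [Finset.sum_comm]
        apply Finset.sum_congr rfl
        intro r _
        rw [← Finset.mul_sum, partRule_run_sum]

/-- The guarantee of `partRule`: if for all nonnegative weights and every independent set `I`
of `M` there are sets `T ρ` (one for each partition `ρ`) that avoid the elements outside all
blocks, meet every block at most once and whose average weight is at least `1 / α` times the
weight of `I`, then the expected weight of any independent-set-valued function of the values
is at most `10 * α` times the expected accepted weight. -/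
theorem partRule_guarantee [Nonempty P] (M : Matroid E) (α : ℝ) (hα : 0 ≤ α)
    (hpart : ∀ v : E → ℝ, (∀ e, 0 ≤ v e) → ∀ I : Finset E, M.Indep (I : Set E) →
      ∃ T : P → Finset E, (∀ ρ, ∀ e ∈ T ρ, blk ρ e ≠ none) ∧
        (∀ ρ, ∀ e ∈ T ρ, ∀ e' ∈ T ρ, blk ρ e = blk ρ e' → e = e') ∧
        ∑ e ∈ I, v e ≤ α * ((1 / (Fintype.card P : ℝ)) * ∑ ρ, ∑ e ∈ T ρ, v e))
    {Ω : Type} [Fintype Ω] (p val : E → Ω → ℝ)
    (hp : ∀ e ω, 0 ≤ p e ω) (hp1 : ∀ e, ∑ ω, p e ω = 1) (hval : ∀ e ω, 0 ≤ val e ω)
    (adv : (E → Ω) → (E → Ω) → P × Fin (0 + 10) → List E)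
    (hadv : ∀ s v r e, e ∈ adv s v r)
    (I : (E → Ω) → Finset E) (hI : ∀ v, M.Indep (I v : Set E)) :
    ∑ v : E → Ω, (∏ e, p e (v e)) * ∑ e ∈ I v, val e (v e)
      ≤ (10 * α) *
        ∑ s : E → Ω, ∑ v : E → Ω, ∑ r : P × Fin (0 + 10),
          (∏ e, p e (s e)) * (∏ e, p e (v e))
            * (1 / (Fintype.card (P × Fin (0 + 10)) : ℝ)) *
            ∑ e ∈ (partRule blk).run (fun e => val e (s e)) r
              (fun e => val e (v e)) (adv s v r), val e (v e) := by
  choose T hT1 hT2 hT3 using fun v : E → Ω =>
    hpart (fun e => val e (v e)) (fun e => hval e (v e)) (I v) (hI v)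
  have hwt : ∀ v : E → Ω, 0 ≤ ∏ e, p e (v e) :=
    fun v => Finset.prod_nonneg (fun e _ => hp e (v e))
  have hcard : (0 : ℝ) < Fintype.card P := by exact_mod_cast Fintype.card_pos
  -- step 1: the hypothesis, in expectation
  have h1 : ∑ v : E → Ω, (∏ e, p e (v e)) * ∑ e ∈ I v, val e (v e)
      ≤ α * ((1 / (Fintype.card P : ℝ)) *
          ∑ ρ : P, ∑ v : E → Ω, (∏ e, p e (v e)) * ∑ e ∈ T v ρ, val e (v e)) := by
    calc ∑ v : E → Ω, (∏ e, p e (v e)) * ∑ e ∈ I v, val e (v e)
        ≤ ∑ v : E → Ω, (∏ e, p e (v e)) *
            (α * ((1 / (Fintype.card P : ℝ)) * ∑ ρ, ∑ e ∈ T v ρ, val e (v e))) :=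
          Finset.sum_le_sum (fun v _ => mul_le_mul_of_nonneg_left (hT3 v) (hwt v))
      _ = α * ((1 / (Fintype.card P : ℝ)) *
            ∑ v : E → Ω, (∏ e, p e (v e)) * ∑ ρ, ∑ e ∈ T v ρ, val e (v e)) := by
          rw [Finset.mul_sum, Finset.mul_sum]
          apply Finset.sum_congr rfl
          intro v _
          ring
      _ = _ := by
          congr 2
          rw [Finset.sum_comm]
          apply Finset.sum_congr rfl
          intro v _
          rw [Finset.mul_sum]
  -- step 2: the guarantee for each partition
  have h2 : ∀ ρ : P, ∑ v : E → Ω, (∏ e, p e (v e)) * ∑ e ∈ T v ρ, val e (v e)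
      ≤ ∑ s : E → Ω, ∑ v : E → Ω, ∑ r : Fin (0 + 10),
          (∏ e, p e (s e)) * (∏ e, p e (v e)) *
            ∑ e ∈ (partRule blk).run (fun e => val e (s e)) (ρ, r)
              (fun e => val e (v e)) (adv s v (ρ, r)), val e (v e) :=
    fun ρ => partRule_block_guarantee blk ρ p val hp hp1 hval adv hadv (fun v => T v ρ)
      (fun v => hT1 v ρ) (fun v => hT2 v ρ)
  -- step 3: the average over the partitions
  have h3 : (10 * α) *
        ∑ s : E → Ω, ∑ v : E → Ω, ∑ r : P × Fin (0 + 10),
          (∏ e, p e (s e)) * (∏ e, p e (v e))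
            * (1 / (Fintype.card (P × Fin (0 + 10)) : ℝ)) *
            ∑ e ∈ (partRule blk).run (fun e => val e (s e)) r
              (fun e => val e (v e)) (adv s v r), val e (v e)
      = α * ((1 / (Fintype.card P : ℝ)) *
          ∑ ρ : P, ∑ s : E → Ω, ∑ v : E → Ω, ∑ r : Fin (0 + 10),
            (∏ e, p e (s e)) * (∏ e, p e (v e)) *
              ∑ e ∈ (partRule blk).run (fun e => val e (s e)) (ρ, r)
                (fun e => val e (v e)) (adv s v (ρ, r)), val e (v e)) := by
    have hc : (Fintype.card (P × Fin (0 + 10)) : ℝ) = (Fintype.card P : ℝ) * 10 := by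
      simp [Fintype.card_prod]
    rw [hc]
    simp only [Fintype.sum_prod_type]
    have hsw : ∑ ρ : P, ∑ s : E → Ω, ∑ v : E → Ω, ∑ r : Fin (0 + 10),
            (∏ e, p e (s e)) * (∏ e, p e (v e)) *
              ∑ e ∈ (partRule blk).run (fun e => val e (s e)) (ρ, r)
                (fun e => val e (v e)) (adv s v (ρ, r)), val e (v e)
        = ∑ s : E → Ω, ∑ v : E → Ω, ∑ ρ : P, ∑ r : Fin (0 + 10),
            (∏ e, p e (s e)) * (∏ e, p e (v e)) *
              ∑ e ∈ (partRule blk).run (fun e => val e (s e)) (ρ, r)
                (fun e => val e (v e)) (adv s v (ρ, r)), val e (v e) := by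
      rw [Finset.sum_comm]
      apply Finset.sum_congr rfl
      intro s _
      rw [Finset.sum_comm]
    rw [hsw, Finset.mul_sum, Finset.mul_sum, Finset.mul_sum]
    apply Finset.sum_congr rfl
    intro s _
    rw [Finset.mul_sum, Finset.mul_sum, Finset.mul_sum]
    apply Finset.sum_congr rfl
    intro v _
    rw [Finset.mul_sum, Finset.mul_sum, Finset.mul_sum]
    apply Finset.sum_congr rfl
    intro ρ _
    rw [Finset.mul_sum, Finset.mul_sum, Finset.mul_sum]
    apply Finset.sum_congr rfl
    intro r _
    field_simp
  rw [h3]
  refine le_trans h1 ?_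
  apply mul_le_mul_of_nonneg_left _ hα
  apply mul_le_mul_of_nonneg_left _ (by positivity)
  exact Finset.sum_le_sum (fun ρ _ => h2 ρ)

end guarantee

end

end Vale.Agent.Lib.P331
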