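import Vale.Agent.Lib.P331.helper87.Partition

/-!
P331: the uniform matroid of rank `k` is covered by the partitions of the ground set into `k`
blocks, with loss `2`: for all nonnegative weights and every set `I` with at most `k`
elements, the average over all maps `ρ : E → Fin k` of the weight of a set that meets every
fibre of `ρ` at most once is at least half the weight of `I`.
-/

namespace Vale.Agent.Lib.P331

open Finset

noncomputable section

open Classical

variable {E : Type} [Fintype E] [DecidableEq E]

/-- Two distinct elements lie in the same fibre for exactly a fraction `1 / k` of the maps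
`E → Fin k`. -/
theorem collide_count (k : ℕ) [NeZero k] (e e' : E) (h : e ≠ e') :
    (k : ℝ) * ∑ ρ : E → Fin k, (if ρ e' = ρ e then (1 : ℝ) else 0)
      = (Fintype.card (E → Fin k) : ℝ) := by
  have h1 : ∀ c : Fin k, ∑ ρ : E → Fin k, (if ρ e' = ρ e then (1 : ℝ) else 0)
      = ∑ ρ : E → Fin k, (if ρ e' + c = ρ e then (1 : ℝ) else 0) := by
    intro c
    have h0 := Equiv.sum_comp (Equiv.addRight (Pi.single e' c : E → Fin k))
      (fun ρ : E → Fin k => if ρ e' = ρ e then (1 : ℝ) else 0)
    rw [← h0]
    apply Finset.sum_congr rfl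
    intro ρ _
    simp [Pi.single_eq_of_ne h]
  have h2 : ∀ ρ : E → Fin k, ∑ c : Fin k, (if ρ e' + c = ρ e then (1 : ℝ) else 0) = 1 := by
    intro ρ
    rw [Finset.sum_eq_single (ρ e - ρ e')]
    · simp
    · intro c _ hc
      rw [if_neg]
      intro h3
      apply hc
      rw [← h3]
      abel
    · simp
  calc (k : ℝ) * ∑ ρ : E → Fin k, (if ρ e' = ρ e then (1 : ℝ) else 0)
      = ∑ c : Fin k, ∑ ρ : E → Fin k, (if ρ e' = ρ e then (1 : ℝ) else 0) := by simp
    _ = ∑ c : Fin k, ∑ ρ : E → Fin k, (if ρ e' + c = ρ e then (1 : ℝ) else 0) :=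
        Finset.sum_congr rfl (fun c _ => h1 c)
    _ = ∑ ρ : E → Fin k, ∑ c : Fin k, (if ρ e' + c = ρ e then (1 : ℝ) else 0) :=
        Finset.sum_comm
    _ = (Fintype.card (E → Fin k) : ℝ) := by simp [h2]

/-- The covering of the uniform matroid of rank `k` by the partitions into `k` blocks. -/
theorem unif_cover (k : ℕ) (hk : 1 ≤ k) (v : E → ℝ) (hv : ∀ e, 0 ≤ v e) (I : Finset E)
    (hIk : I.card ≤ k) :
    ∃ T : (E → Fin k) → Finset E,
      (∀ ρ, ∀ e ∈ T ρ, ∀ e' ∈ T ρ, ρ e = ρ e' → e = e') ∧
      ∑ e ∈ I, v e
        ≤ 2 * ((1 / (Fintype.card (E → Fin k) : ℝ)) * ∑ ρ, ∑ e ∈ T ρ, v e) := by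
  have hk0 : NeZero k := ⟨by omega⟩
  -- a strict total order that refines the order of the weights
  let idx : E → ℕ := fun e => ((Fintype.equivFin E) e).val
  have hidx : ∀ a b, idx a = idx b → a = b := by
    intro a b h
    exact (Fintype.equivFin E).injective (Fin.ext h)
  let beats : E → E → Prop := fun a b => v b < v a ∨ (v b = v a ∧ idx b < idx a)
  have B1 : ∀ a b, beats a b → v b ≤ v a := by
    intro a b h
    rcases h with h | h
    · exact le_of_lt h
    · exact le_of_eq h.1
  have B2 : ∀ a b, a ≠ b → beats a b ∨ beats b a := by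
    intro a b hab
    rcases lt_trichotomy (v a) (v b) with h | h | h
    · right
      left
      exact h
    · have hne : idx a ≠ idx b := fun h2 => hab (hidx a b h2)
      rcases lt_or_gt_of_ne hne with h2 | h2
      · right
        right
        exact ⟨h, h2⟩
      · left
        right
        exact ⟨h.symm, h2⟩
    · left
      left
      exact h
  have B3 : ∀ a b, beats a b → ¬ beats b a := by
    intro a b h h'
    rcases h with h | ⟨h, h2⟩ <;> rcases h' with h' | ⟨h', h2'⟩
    · linarith
    · linarith
    · linarith
    · omega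
  refine ⟨fun ρ => I.filter (fun e => ∀ e' ∈ I, e' ≠ e → beats e' e → ρ e' ≠ ρ e), ?_, ?_⟩
  · intro ρ e he e' he' hee
    by_contra hne
    rw [Finset.mem_filter] at he he'
    rcases B2 e e' hne with h | h
    · exact he'.2 e he.1 hne h hee
    · exact he.2 e' he'.1 (Ne.symm hne) h hee.symm
  · set N : ℝ := (Fintype.card (E → Fin k) : ℝ) with hN
    have hNpos : 0 < N := by
      rw [hN]
      exact_mod_cast Fintype.card_pos
    have hkpos : (0 : ℝ) < k := by exact_mod_cast hk
    let d : E → E → ℝ := fun e e' => if e' ≠ e ∧ beats e' e then v e else 0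
    have hd0 : ∀ e e', 0 ≤ d e e' := by
      intro e e'
      simp only [d]
      split_ifs
      · exact hv e
      · exact le_refl _
    have hpt : ∀ ρ : E → Fin k, ∀ e ∈ I,
        v e - ∑ e' ∈ I, (if ρ e' = ρ e then d e e' else 0)
          ≤ (if (∀ e' ∈ I, e' ≠ e → beats e' e → ρ e' ≠ ρ e) then v e else 0) := by
      intro ρ e he
      have hnn : ∀ e' ∈ I, 0 ≤ (if ρ e' = ρ e then d e e' else 0) := by
        intro e' _
        split_ifs
        · exact hd0 e e'
        · exact le_refl _
      by_cases hq : ∀ e' ∈ I, e' ≠ e → beats e' e → ρ e' ≠ ρ e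
      · rw [if_pos hq]
        have := Finset.sum_nonneg hnn
        linarith
      · rw [if_neg hq]
        push Not at hq
        obtain ⟨e', he', hne, hb, hρ⟩ := hq
        have h1 : (if ρ e' = ρ e then d e e' else 0)
            ≤ ∑ e' ∈ I, (if ρ e' = ρ e then d e e' else 0) :=
          Finset.single_le_sum (f := fun e' => if ρ e' = ρ e then d e e' else 0) hnn he'
        have h2 : (if ρ e' = ρ e then d e e' else 0) = v e := by
          rw [if_pos hρ]
          simp only [d]
          rw [if_pos ⟨hne, hb⟩]
        linarith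
    have hcol : ∀ e e', ∑ ρ : E → Fin k, (if ρ e' = ρ e then d e e' else 0)
        = N / k * d e e' := by
      intro e e'
      by_cases h : e' ≠ e ∧ beats e' e
      · have h1 := collide_count k e e' (Ne.symm h.1)
        have h2 : ∑ ρ : E → Fin k, (if ρ e' = ρ e then d e e' else 0)
            = (∑ ρ : E → Fin k, (if ρ e' = ρ e then (1 : ℝ) else 0)) * d e e' := by
          rw [Finset.sum_mul]
          apply Finset.sum_congr rfl
          intro ρ _
          split_ifs <;> simp
        rw [h2]
        have h3 : ∑ ρ : E → Fin k, (if ρ e' = ρ e then (1 : ℝ) else 0) = N / k := by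
          rw [eq_div_iff (ne_of_gt hkpos), mul_comm]
          exact h1
        rw [h3]
      · have h0 : d e e' = 0 := by
          simp only [d]
          rw [if_neg h]
        rw [h0]
        simp
    have hpair : ∑ e ∈ I, ∑ e' ∈ I, d e e' ≤ (k : ℝ) / 2 * ∑ e ∈ I, v e := by
      have hsym : ∀ e e', d e e' + d e' e ≤ (v e + v e') / 2 := by
        intro e e'
        by_cases hne : e = e'
        · subst hne
          have h0 : d e e = 0 := by
            simp only [d]
            rw [if_neg]
            rintro ⟨h1, _⟩
            exact h1 rfl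
          rw [h0]
          linarith [hv e]
        · rcases B2 e e' hne with h | h
          · have h1 : d e e' = 0 := by
              simp only [d]
              rw [if_neg]
              rintro ⟨_, h2⟩
              exact B3 e e' h h2
            have h2 : d e' e = v e' := by
              simp only [d]
              rw [if_pos ⟨hne, h⟩]
            have := B1 e e' h
            rw [h1, h2]
            linarith
          · have h1 : d e' e = 0 := by
              simp only [d]
              rw [if_neg]
              rintro ⟨_, h2⟩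
              exact B3 e' e h h2
            have h2 : d e e' = v e := by
              simp only [d]
              rw [if_pos ⟨Ne.symm hne, h⟩]
            have := B1 e' e h
            rw [h1, h2]
            linarith
      have h1 : ∑ e ∈ I, ∑ e' ∈ I, d e e' = ∑ e ∈ I, ∑ e' ∈ I, d e' e := Finset.sum_comm
      have h2 : 2 * ∑ e ∈ I, ∑ e' ∈ I, d e e' ≤ ∑ e ∈ I, ∑ e' ∈ I, (v e + v e') / 2 := by
        calc 2 * ∑ e ∈ I, ∑ e' ∈ I, d e e'
            = ∑ e ∈ I, ∑ e' ∈ I, d e e' + ∑ e ∈ I, ∑ e' ∈ I, d e' e := by
              rw [← h1]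
              ring
          _ = ∑ e ∈ I, ∑ e' ∈ I, (d e e' + d e' e) := by
              simp only [Finset.sum_add_distrib]
          _ ≤ _ := Finset.sum_le_sum (fun e _ => Finset.sum_le_sum (fun e' _ => hsym e e'))
      have h3 : ∑ e ∈ I, ∑ e' ∈ I, (v e + v e') / 2 = (I.card : ℝ) * ∑ e ∈ I, v e := by
        have h4 : ∀ e, ∑ e' ∈ I, (v e + v e') / 2
            = (I.card : ℝ) * v e / 2 + (∑ e' ∈ I, v e') / 2 := by
          intro e
          rw [← Finset.sum_div, Finset.sum_add_distrib, Finset.sum_const, nsmul_eq_mul]
          ring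
        simp only [h4]
        rw [Finset.sum_add_distrib, Finset.sum_const, nsmul_eq_mul, ← Finset.sum_div,
          ← Finset.mul_sum]
        ring
      have hn : (I.card : ℝ) ≤ k := by exact_mod_cast hIk
      have hs : 0 ≤ ∑ e ∈ I, v e := Finset.sum_nonneg (fun e _ => hv e)
      nlinarith
    have hmain : N / 2 * ∑ e ∈ I, v e
        ≤ ∑ ρ : E → Fin k,
            ∑ e ∈ I.filter (fun e => ∀ e' ∈ I, e' ≠ e → beats e' e → ρ e' ≠ ρ e), v e := by
      calc N / 2 * ∑ e ∈ I, v e
          ≤ N * ∑ e ∈ I, v e - N / k * ∑ e ∈ I, ∑ e' ∈ I, d e e' := by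
            have h5 : N / k * ∑ e ∈ I, ∑ e' ∈ I, d e e'
                ≤ N / k * ((k : ℝ) / 2 * ∑ e ∈ I, v e) :=
              mul_le_mul_of_nonneg_left hpair (by positivity)
            have h6 : N / k * ((k : ℝ) / 2 * ∑ e ∈ I, v e) = N / 2 * ∑ e ∈ I, v e := by
              field_simp
            linarith
        _ = ∑ ρ : E → Fin k,
              ∑ e ∈ I, (v e - ∑ e' ∈ I, (if ρ e' = ρ e then d e e' else 0)) := by
            simp only [Finset.sum_sub_distrib]
            rw [Finset.sum_const, nsmul_eq_mul, Finset.card_univ]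
            congr 1
            have hR : ∑ ρ : E → Fin k, ∑ e ∈ I, ∑ e' ∈ I,
                  (if ρ e' = ρ e then d e e' else 0)
                = ∑ e ∈ I, ∑ e' ∈ I, N / k * d e e' := by
              rw [Finset.sum_comm]
              apply Finset.sum_congr rfl
              intro e _
              rw [Finset.sum_comm]
              apply Finset.sum_congr rfl
              intro e' _
              exact hcol e e'
            rw [hR, Finset.mul_sum]
            apply Finset.sum_congr rfl
            intro e _
            rw [Finset.mul_sum]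
        _ ≤ ∑ ρ : E → Fin k, ∑ e ∈ I,
              (if (∀ e' ∈ I, e' ≠ e → beats e' e → ρ e' ≠ ρ e) then v e else 0) :=
            Finset.sum_le_sum (fun ρ _ => Finset.sum_le_sum (fun e he => hpt ρ e he))
        _ = _ := by
            apply Finset.sum_congr rfl
            intro ρ _
            rw [Finset.sum_filter]
    have h7 : 2 * (1 / N * (N / 2 * ∑ e ∈ I, v e)) = ∑ e ∈ I, v e := by
      field_simp
    calc ∑ e ∈ I, v e = 2 * (1 / N * (N / 2 * ∑ e ∈ I, v e)) := h7.symm
      _ ≤ _ := by
          apply mul_le_mul_of_nonneg_left _ (by norm_num)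
          exact mul_le_mul_of_nonneg_left hmain (by positivity)

end

end Vale.Agent.Lib.P331
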